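import Vale.Agent.P215.H788.NotGdelta

/-!
# P215: the space of marked groups is compact
-/

noncomputable section

namespace Vale.Agent.P215.R2.H460

open Vale.Agent.P215.H788 Topology Set

variable {n : ℕ}

theorem char_eq_true (N : MarkedGroup n) (w : FreeGroup (Fin n)) :
    N.char w = true ↔ w ∈ N.1 := by
  unfold MarkedGroup.char
  simp

theorem char_injective : Function.Injective (MarkedGroup.char (n := n)) := by
  intro N N' h
  refine Subtype.ext (SetLike.ext fun w => ?_)
  rw [← char_eq_true, ← char_eq_true, h]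

/-- The characteristic functions of the normal subgroups. -/
def chars (n : ℕ) : Set (FreeGroup (Fin n) → Bool) :=
  {f | f 1 = true} ∩ (⋂ a, ⋂ b, {f | f a = true → f b = true → f (a * b) = true}) ∩
    (⋂ a, {f | f a = true → f a⁻¹ = true}) ∩
    (⋂ a, ⋂ g, {f | f a = true → f (g * a * g⁻¹) = true})

theorem range_char : range (MarkedGroup.char (n := n)) = chars n := by
  ext f
  constructor
  · rintro ⟨N, rfl⟩
    simp only [chars, mem_inter_iff, mem_iInter, mem_ofPred_eq, char_eq_true]
    exact ⟨⟨⟨one_mem _, fun a b => mul_mem⟩, fun a => inv_mem⟩,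
      fun a g h => N.2.conj_mem a h g⟩
  · intro h
    simp only [chars, mem_inter_iff, mem_iInter, mem_ofPred_eq] at h
    obtain ⟨⟨⟨h1, h2⟩, h3⟩, h4⟩ := h
    let K : Subgroup (FreeGroup (Fin n)) :=
      { carrier := {w | f w = true}
        one_mem' := h1
        mul_mem' := fun {a b} ha hb => h2 a b ha hb
        inv_mem' := fun {a} ha => h3 a ha }
    refine ⟨⟨K, ⟨fun a ha g => h4 a g ha⟩⟩, funext fun w => ?_⟩
    have h5 : (MarkedGroup.char ⟨K, ⟨fun a ha g => h4 a g ha⟩⟩ w = true) ↔ f w = true :=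
      char_eq_true _ _
    exact Bool.eq_iff_iff.2 h5

theorem isClosed_chars (n : ℕ) : IsClosed (chars n) := by
  have key : ∀ (k : ℕ) (a : Fin k → FreeGroup (Fin n)) (P : (Fin k → Bool) → Prop),
      IsClosed {f : FreeGroup (Fin n) → Bool | P fun i => f (a i)} := by
    intro k a P
    have hc : Continuous fun f : FreeGroup (Fin n) → Bool => fun i => f (a i) :=
      continuous_pi fun i => continuous_apply (a i)
    exact (isClosed_discrete {p | P p}).preimage hc
  refine ((IsClosed.inter (IsClosed.inter ?_ ?_) ?_)).inter ?_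
  · exact key 1 ![1] fun p => p 0 = true
  · exact isClosed_iInter fun a => isClosed_iInter fun b =>
      key 3 ![a, b, a * b] fun p => p 0 = true → p 1 = true → p 2 = true
  · exact isClosed_iInter fun a => key 2 ![a, a⁻¹] fun p => p 0 = true → p 1 = true
  · exact isClosed_iInter fun a => isClosed_iInter fun g =>
      key 2 ![a, g * a * g⁻¹] fun p => p 0 = true → p 1 = true

theorem isClosedEmbedding_char : IsClosedEmbedding (MarkedGroup.char (n := n)) :=
  ⟨⟨⟨rfl⟩, char_injective⟩, by rw [range_char]; exact isClosed_chars n⟩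

instance : CompactSpace (MarkedGroup n) := isClosedEmbedding_char.compactSpace

instance : T2Space (MarkedGroup n) := isClosedEmbedding_char.isEmbedding.t2Space

/-- A point is in the closure of a set if all balls around it meet the set. -/
theorem mem_closure_of_ball {A : Set (MarkedGroup n)} {N : MarkedGroup n}
    (h : ∀ R : ℕ, ∃ N' ∈ A, ∀ w : FreeGroup (Fin n), w.norm ≤ R → (w ∈ N.1 ↔ w ∈ N'.1)) :
    N ∈ closure A := by
  rw [mem_closure_iff]
  intro U hU hN
  obtain ⟨R, hR⟩ := MarkedGroup.exists_ball_subset hU hN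
  obtain ⟨N', hN', h'⟩ := h R
  exact ⟨N', hR N' h', hN'⟩

/-- **Baire category.**  Let `P` be a `G_δ` and an `F_σ` set of marked groups, and `C` a closed set,
nonempty, such that `P` is dense in `C`. Then `P` contains a nonempty relatively open subset
of `C`. -/
theorem exists_open_of_Gdelta_Fsigma {P C A : Set (MarkedGroup n)} (hP : IsGδ P)
    (S : ℕ → Set (MarkedGroup n)) (hS : ∀ k, IsClosed (S k)) (hSP : (⋃ k, S k) = P)
    (hC : C = closure A) (hA : A ⊆ P) (hne : A.Nonempty) :
    ∃ U : Set (MarkedGroup n), IsOpen U ∧ (U ∩ C).Nonempty ∧ U ∩ C ⊆ P := by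
  obtain ⟨V, hV, hVe⟩ := isGδ_iff_eq_iInter_nat.1 hP
  have hCc : IsClosed C := by rw [hC]; exact isClosed_closure
  have : CompactSpace C := isCompact_iff_compactSpace.1 hCc.isCompact
  have : Nonempty C := by
    obtain ⟨a, ha⟩ := hne
    exact ⟨⟨a, by rw [hC]; exact subset_closure ha⟩⟩
  let T : ℕ ⊕ ℕ → Set C := fun k => Sum.elim (fun k => Subtype.val ⁻¹' (S k))
    (fun k => Subtype.val ⁻¹' (V k)ᶜ) k
  have hT : ∀ k, IsClosed (T k) := by
    rintro (k | k)
    · exact (hS k).preimage continuous_subtype_val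
    · exact (hV k).isClosed_compl.preimage continuous_subtype_val
  have hU : ⋃ k, T k = univ := by
    rw [eq_univ_iff_forall]
    rintro ⟨x, hx⟩
    by_cases h : x ∈ P
    · rw [← hSP] at h
      obtain ⟨k, hk⟩ := mem_iUnion.1 h
      exact mem_iUnion.2 ⟨Sum.inl k, hk⟩
    · rw [hVe, mem_iInter] at h
      push Not at h
      obtain ⟨k, hk⟩ := h
      exact mem_iUnion.2 ⟨Sum.inr k, hk⟩
  obtain ⟨k, hk⟩ := nonempty_interior_of_iUnion_of_closed hT hU
  obtain ⟨W, hW, hWe⟩ := isOpen_induced_iff.1 (isOpen_interior (s := T k))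
  obtain ⟨x, hx⟩ := hk
  have hxW : (x : MarkedGroup n) ∈ W := by
    have : x ∈ Subtype.val ⁻¹' W := by rw [hWe]; exact hx
    exact this
  have hsub : ∀ y (hy : y ∈ C), y ∈ W → (⟨y, hy⟩ : C) ∈ T k := by
    intro y hy hyW
    have : (⟨y, hy⟩ : C) ∈ Subtype.val ⁻¹' W := hyW
    rw [hWe] at this
    exact interior_subset this
  rcases k with k | k
  · refine ⟨W, hW, ⟨x, hxW, x.2⟩, ?_⟩
    rintro y ⟨hyW, hy⟩
    rw [← hSP]
    exact mem_iUnion.2 ⟨k, hsub y hy hyW⟩
  · exfalso
    have h1 : (x : MarkedGroup n) ∈ closure A := by rw [← hC]; exact x.2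
    obtain ⟨y, hyW, hyA⟩ := mem_closure_iff.1 h1 W hW hxW
    have hy : y ∈ C := by rw [hC]; exact subset_closure hyA
    have h2 : y ∉ V k := hsub y hy hyW
    have h3 : y ∈ P := hA hyA
    rw [hVe] at h3
    exact h2 (mem_iInter.1 h3 k)

end Vale.Agent.P215.R2.H460
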