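import Vale.Agent.P215.R2.H460.Phi
import Vale.Agent.P215.R2.H460.Compact

/-!
# P215: a closed set of marked groups in which the solvable groups and the groups which contain a
free group are dense
-/

noncomputable section

namespace Vale.Agent.P215.R2.H460

open Vale.Agent.P215.H788 Topology Set

theorem exists_derivedSeries_le_ker {Q : Type} [Group Q] [hQ : Group.IsSolvable Q] (φ : F →* Q) :
    ∃ d, derivedSeries F d ≤ φ.ker := by
  obtain ⟨d, hd⟩ := (Group.isSolvable_def Q).1 hQ
  refine ⟨d, fun w hw => ?_⟩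
  have h1 := map_derivedSeries_le_derivedSeries φ d ⟨w, hw, rfl⟩
  rw [hd] at h1
  exact h1

/-- The terms of the derived series of `F` leave every ball. -/
theorem exists_small (R : ℕ) : ∃ d, ∀ w : F, w.norm ≤ R → w ∈ derivedSeries F d → w = 1 := by
  classical
  have h : ∀ w : F, ∃ d, w ≠ 1 → w ∉ derivedSeries F d := by
    intro w
    by_cases hw : w = 1
    · exact ⟨0, fun h => absurd hw h⟩
    · obtain ⟨d, hd⟩ := exists_notMem_derivedSeries w hw
      exact ⟨d, fun _ => hd⟩
  choose D hD using h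
  obtain ⟨d, hd⟩ := ((MarkedGroup.finite_norm_le (n := 2) R).image D).bddAbove
  refine ⟨d, fun w hw h1 => ?_⟩
  by_contra h2
  exact hD w h2 (derivedSeries_antitone F (hd ⟨w, hw, rfl⟩) h1)

/-- The quotients of `F` by a normal subgroup which contains a term of the derived series is
solvable. -/
theorem isSolvable_quotient (N : MarkedGroup 2) (h : ∃ d, derivedSeries F d ≤ N.1) :
    Group.IsSolvable N.Grp := by
  obtain ⟨d, hd⟩ := h
  refine (Group.isSolvable_def _).2 ⟨d, ?_⟩
  rw [← map_derivedSeries_eq (QuotientGroup.mk'_surjective N.1), eq_bot_iff]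
  rintro _ ⟨w, hw, rfl⟩
  exact Subgroup.mem_bot.2 ((QuotientGroup.eq_one_iff w).2 (hd hw))

/-- The solvable quotients of `F` by subgroups of the kernel of `F → ℤ ≀ ℤ`. -/
def AA : Set (MarkedGroup 2) := {N | (∃ d, derivedSeries F d ≤ N.1) ∧ N.1 ≤ Psi.ker}

theorem AA_nonempty : AA.Nonempty := by
  have : Group.IsSolvable (Multiplicative ℤ) :=
    Group.isSolvable_of_comm fun a b => mul_comm a b
  have : Group.IsSolvable (Wr (Multiplicative ℤ)) := wr_isSolvable
  exact ⟨⟨Psi.ker, inferInstance⟩, exists_derivedSeries_le_ker Psi, le_rfl⟩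

/-- The intersection with the kernel of `Phi m`. -/
def cut (m : ℕ) (N : MarkedGroup 2) : MarkedGroup 2 := ⟨N.1 ⊓ (Phi m).ker, inferInstance⟩

/-- The elements of `AA` are limits of their intersections with the kernels of `Phi m`. -/
theorem cut_near {N : MarkedGroup 2} (hN : N ∈ AA) (R : ℕ) (w : F) (hw : w.norm ≤ R) :
    w ∈ N.1 ↔ w ∈ (cut (2 * R + 1) N).1 := by
  constructor
  · intro h
    exact ⟨h, mem_ker_Phi _ w (by omega) (hN.2 h)⟩
  · intro h
    exact h.1

/-- These intersections are in the closure of `AA`. -/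
theorem cut_mem_closure {N : MarkedGroup 2} (hN : N ∈ AA) (m : ℕ) : cut m N ∈ closure AA := by
  apply mem_closure_of_ball
  intro R
  obtain ⟨d, hd⟩ := exists_small R
  obtain ⟨⟨d₁, h₁⟩, hP⟩ := hN
  have hs : Group.IsSolvable (F ⧸ derivedSeries F d) :=
    isSolvable_quotient ⟨derivedSeries F d, inferInstance⟩ ⟨d, le_rfl⟩
  have hs2 : Group.IsSolvable (Wr (F ⧸ derivedSeries F d)) := wr_isSolvable
  obtain ⟨d₂, h₂⟩ := exists_derivedSeries_le_ker
    ((wrMap (QuotientGroup.mk' (derivedSeries F d))).comp (Phi m))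
  have hn : (N.1 ⊓ SK m (derivedSeries F d)).Normal := inferInstance
  refine ⟨⟨N.1 ⊓ SK m (derivedSeries F d), hn⟩, ⟨⟨max d₁ d₂, ?_⟩, ?_⟩, ?_⟩
  · exact le_inf ((derivedSeries_antitone F (le_max_left _ _)).trans h₁)
      ((derivedSeries_antitone F (le_max_right _ _)).trans h₂)
  · exact inf_le_left.trans hP
  · intro w hw
    refine and_congr_right fun _ => ?_
    change w ∈ (Phi m).ker ↔ w ∈ SK m (derivedSeries F d)
    rw [mem_SK]
    constructor
    · intro h
      rw [MonoidHom.mem_ker] at h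
      rw [h]
      exact ⟨rfl, fun q => one_mem _⟩
    · rintro ⟨h1, h2⟩
      rw [MonoidHom.mem_ker]
      refine Wr.ext (funext fun q => ?_) h1
      exact hd _ ((norm_section m w q).trans hw) (h2 q)

/-- Near every point of the closure of `AA` there is a point of this closure whose group contains a
free group of rank two. -/
theorem exists_cut_mem {U : Set (MarkedGroup 2)} (hU : IsOpen U) (h : (U ∩ closure AA).Nonempty) :
    ∃ N ∈ U ∩ closure AA, ∃ f : FreeGroup (Fin 2) →* N.Grp, Function.Injective f := by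
  obtain ⟨x, hxU, hx⟩ := h
  obtain ⟨N, hNU, hN⟩ := mem_closure_iff.1 hx U hU hxU
  obtain ⟨R, hR⟩ := MarkedGroup.exists_ball_subset hU hNU
  refine ⟨cut (2 * R + 1) N, ⟨hR _ fun w hw => cut_near hN R w hw, cut_mem_closure hN _⟩, ?_⟩
  exact exists_injective (2 * R + 1) (by omega) (cut (2 * R + 1) N).1 inf_le_right

/-- **The closed set.** -/
theorem exists_closed : ∃ C : Set (MarkedGroup 2), IsClosed C ∧ C.Nonempty ∧
    C ⊆ closure {N | N ∈ C ∧ Group.IsSolvable N.Grp} ∧
    C ⊆ closure {N | N ∈ C ∧ ∃ f : FreeGroup (Fin 2) →* N.Grp, Function.Injective f} := by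
  refine ⟨closure AA, isClosed_closure, AA_nonempty.mono subset_closure, ?_, ?_⟩
  · exact closure_mono fun N hN => ⟨subset_closure hN, isSolvable_quotient N hN.1⟩
  · intro x hx
    rw [mem_closure_iff]
    intro U hU hxU
    obtain ⟨N, ⟨h1, h2⟩, h3⟩ := exists_cut_mem hU ⟨x, hxU, hx⟩
    exact ⟨N, h1, h2, h3⟩

end Vale.Agent.P215.R2.H460
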