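import Vale.Agent.P215.R2.H460.Main

/-!
# P215: the local form of the criterion, at every solvable marked group which maps onto `ℤ ≀ ℤ`
-/

noncomputable section

namespace Vale.Agent.P215.R2.H460

open Vale.Agent.P215.H788 Topology Set

/-- The group maps onto `ℤ ≀ ℤ` (the image of `Psi`). -/
def MapsOntoZwrZ (Γ : Type) [Group Γ] : Prop :=
  ∃ f : Γ →* Wr (Multiplicative ℤ), f.range = Psi.range

theorem exists_derived_le_ker {G Q : Type} [Group G] [Group Q] [hQ : Group.IsSolvable Q]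
    (φ : G →* Q) : ∃ d, derivedSeries G d ≤ φ.ker := by
  obtain ⟨d, hd⟩ := (Group.isSolvable_def Q).1 hQ
  refine ⟨d, fun w hw => ?_⟩
  have h1 := map_derivedSeries_le_derivedSeries φ d ⟨w, hw, rfl⟩
  rw [hd] at h1
  exact h1

theorem isSolvable_iff {n : ℕ} (N : MarkedGroup n) :
    Group.IsSolvable N.Grp ↔ ∃ d, derivedSeries (FreeGroup (Fin n)) d ≤ N.1 := by
  constructor
  · intro h
    obtain ⟨d, hd⟩ := exists_derived_le_ker (QuotientGroup.mk' N.1)
    rw [QuotientGroup.ker_mk'] at hd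
    exact ⟨d, hd⟩
  · rintro ⟨d, hd⟩
    refine (Group.isSolvable_def _).2 ⟨d, ?_⟩
    rw [← map_derivedSeries_eq (QuotientGroup.mk'_surjective N.1), eq_bot_iff]
    rintro _ ⟨w, hw, rfl⟩
    exact Subgroup.mem_bot.2 ((QuotientGroup.eq_one_iff w).2 (hd hw))

/-- A homomorphism `F_n → F_2` such that the composite with `Psi` is onto `ℤ ≀ ℤ`, with preimages
of the generators. -/
structure Over (n : ℕ) where
  /-- the homomorphism -/
  σ : FreeGroup (Fin n) →* F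
  /-- the first preimage -/
  t : FreeGroup (Fin n)
  /-- the second preimage -/
  b : FreeGroup (Fin n)
  ht : Psi (σ t) = Psi tF
  hb : Psi (σ b) = Psi bF

theorem range_Psi_le {G : Type} [Group G] (f : G →* Wr (Multiplicative ℤ)) (x y : G)
    (hx : f x = Psi tF) (hy : f y = Psi bF) : Psi.range ≤ f.range := by
  rw [MonoidHom.range_eq_map, ← FreeGroup.closure_range_of, MonoidHom.map_closure,
    Subgroup.closure_le]
  rintro _ ⟨_, ⟨i, rfl⟩, rfl⟩
  fin_cases i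
  · exact ⟨x, hx⟩
  · exact ⟨y, hy⟩

theorem exists_over {n : ℕ} (N : MarkedGroup n) (h : MapsOntoZwrZ N.Grp) :
    ∃ L : Over n, N.1 ≤ (Psi.comp L.σ).ker := by
  obtain ⟨f, hf⟩ := h
  have h1 : ∀ i : Fin n, ∃ u : F, Psi u = f (QuotientGroup.mk' N.1 (FreeGroup.of i)) := by
    intro i
    have : f (QuotientGroup.mk' N.1 (FreeGroup.of i)) ∈ Psi.range := by
      rw [← hf]; exact ⟨_, rfl⟩
    exact this
  choose u hu using h1
  have h2 : Psi.comp (FreeGroup.lift u) = f.comp (QuotientGroup.mk' N.1) := by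
    apply FreeGroup.ext_hom
    intro i
    rw [MonoidHom.comp_apply, FreeGroup.lift_apply_of, hu]
    rfl
  have h3 : ∀ v : F, ∃ x : FreeGroup (Fin n), Psi (FreeGroup.lift u x) = Psi v := by
    intro v
    have : Psi v ∈ f.range := by rw [hf]; exact ⟨v, rfl⟩
    obtain ⟨y, hy⟩ := this
    obtain ⟨x, rfl⟩ := QuotientGroup.mk'_surjective N.1 y
    refine ⟨x, ?_⟩
    rw [← MonoidHom.comp_apply, h2, MonoidHom.comp_apply, hy]
  obtain ⟨t, ht⟩ := h3 tF
  obtain ⟨b, hb⟩ := h3 bF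
  refine ⟨⟨FreeGroup.lift u, t, b, ht, hb⟩, fun w hw => ?_⟩
  rw [MonoidHom.mem_ker, h2, MonoidHom.comp_apply]
  have : QuotientGroup.mk' N.1 w = 1 := (QuotientGroup.eq_one_iff w).2 hw
  rw [this, map_one]

section lift

variable {n : ℕ} (L : Over n)

/-- The composites of `Phi` with the homomorphism. -/
def Over.Phi (m : ℕ) : FreeGroup (Fin n) →* Wr F := (H460.Phi m).comp L.σ

/-- The composite of `Psi` with the homomorphism. -/
def Over.Psi : FreeGroup (Fin n) →* Wr (Multiplicative ℤ) := H460.Psi.comp L.σ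

/-- The homomorphism `F_2 → F_n` given by the preimages. -/
def Over.up : F →* FreeGroup (Fin n) := FreeGroup.lift fun i => if i = 0 then L.t else L.b

theorem Over.range_Psi : L.Psi.range = H460.Psi.range := by
  apply le_antisymm
  · rintro _ ⟨x, rfl⟩
    exact ⟨L.σ x, rfl⟩
  · exact range_Psi_le _ L.t L.b L.ht L.hb

theorem mapsOnto_of_le (N : MarkedGroup n) (h : N.1 ≤ L.Psi.ker) : MapsOntoZwrZ N.Grp := by
  refine ⟨QuotientGroup.lift N.1 L.Psi h, ?_⟩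
  rw [← L.range_Psi]
  apply le_antisymm
  · rintro _ ⟨x, rfl⟩
    obtain ⟨w, rfl⟩ := QuotientGroup.mk'_surjective N.1 x
    exact ⟨w, rfl⟩
  · rintro _ ⟨w, rfl⟩
    exact ⟨QuotientGroup.mk' N.1 w, rfl⟩

theorem Phi_eq_of_Psi_eq {m : ℕ} {x y : F} (h : Psi x = Psi y) (hm : 2 * (y⁻¹ * x).norm < m) :
    Phi m x = Phi m y := by
  have h1 : y⁻¹ * x ∈ Psi.ker := by
    rw [MonoidHom.mem_ker, map_mul, map_inv, h, inv_mul_cancel]
  have h2 := mem_ker_Phi m _ hm h1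
  rw [MonoidHom.mem_ker, map_mul, map_inv, inv_mul_eq_one] at h2
  exact h2.symm

theorem Over.exists_comp_up : ∃ m₀ : ℕ, ∀ m, m₀ ≤ m → (L.Phi m).comp L.up = H460.Phi m := by
  refine ⟨2 * ((tF⁻¹ * L.σ L.t).norm + (bF⁻¹ * L.σ L.b).norm) + 1, fun m hm => ?_⟩
  apply FreeGroup.ext_hom
  intro i
  rw [MonoidHom.comp_apply]
  fin_cases i
  · change L.Phi m (L.up (FreeGroup.of 0)) = H460.Phi m tF
    have : L.up (FreeGroup.of 0) = L.t := by simp [Over.up]
    rw [this]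
    exact Phi_eq_of_Psi_eq L.ht (by omega)
  · change L.Phi m (L.up (FreeGroup.of 1)) = H460.Phi m bF
    have : L.up (FreeGroup.of 1) = L.b := by simp [Over.up]
    rw [this]
    exact Phi_eq_of_Psi_eq L.hb (by omega)

theorem Over.exists_injective : ∃ m₀ : ℕ, ∀ m, m₀ ≤ m → ∀ N : MarkedGroup n,
    N.1 ≤ (L.Phi m).ker → ∃ f : FreeGroup (Fin 2) →* N.Grp, Function.Injective f := by
  obtain ⟨m₀, h₀⟩ := L.exists_comp_up
  refine ⟨m₀ + 1, fun m hm N hN => ⟨(QuotientGroup.mk' N.1).comp (L.up.comp (lam m)),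
    (injective_iff_map_eq_one _).2 fun v hv => ?_⟩⟩
  have h1 : L.up (lam m v) ∈ N.1 := (QuotientGroup.eq_one_iff (L.up (lam m v))).1 hv
  have h2 := Phi_lam m (by omega) v
  have h3 : H460.Phi m (lam m v) = 1 := by
    rw [← h₀ m (by omega), MonoidHom.comp_apply]
    exact hN h1
  rw [h3] at h2
  exact h2.2.symm

/-- The solvable quotients of `F_n` by subgroups of the kernel of `F_n → ℤ ≀ ℤ`. -/
def Over.AA : Set (MarkedGroup n) :=
  {N | (∃ d, derivedSeries (FreeGroup (Fin n)) d ≤ N.1) ∧ N.1 ≤ L.Psi.ker}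

instance (m : ℕ) : ((L.Phi m).ker).Normal := MonoidHom.normal_ker _

/-- The intersection with the kernel. -/
def Over.cut (m : ℕ) (N : MarkedGroup n) : MarkedGroup n := ⟨N.1 ⊓ (L.Phi m).ker, inferInstance⟩

theorem Over.exists_norm (R : ℕ) :
    ∃ R' : ℕ, ∀ w : FreeGroup (Fin n), w.norm ≤ R → (L.σ w).norm ≤ R' := by
  obtain ⟨R', h⟩ := ((MarkedGroup.finite_norm_le (n := n) R).image
    fun w => (L.σ w).norm).bddAbove
  exact ⟨R', fun w hw => h ⟨w, hw, rfl⟩⟩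

theorem Over.cut_near {N : MarkedGroup n} (hN : N.1 ≤ L.Psi.ker) (R : ℕ) :
    ∃ m₀ : ℕ, ∀ m, m₀ ≤ m → ∀ w : FreeGroup (Fin n), w.norm ≤ R →
      (w ∈ N.1 ↔ w ∈ (L.cut m N).1) := by
  obtain ⟨R', h'⟩ := L.exists_norm R
  refine ⟨2 * R' + 1, fun m hm w hw => ⟨fun h => ⟨h, ?_⟩, fun h => h.1⟩⟩
  have h1 := h' w hw
  have h2 : L.σ w ∈ H460.Psi.ker := hN h
  exact mem_ker_Phi m (L.σ w) (by omega) h2

theorem Over.cut_mem_closure {N : MarkedGroup n} (hN : N ∈ L.AA) (m : ℕ) :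
    L.cut m N ∈ closure L.AA := by
  apply mem_closure_of_ball
  intro R
  obtain ⟨R', h'⟩ := L.exists_norm R
  obtain ⟨d, hd⟩ := exists_small R'
  obtain ⟨⟨d₁, h₁⟩, hP⟩ := hN
  have hs : Group.IsSolvable (F ⧸ derivedSeries F d) :=
    isSolvable_quotient ⟨derivedSeries F d, inferInstance⟩ ⟨d, le_rfl⟩
  have hs2 : Group.IsSolvable (Wr (F ⧸ derivedSeries F d)) := wr_isSolvable
  obtain ⟨d₂, h₂⟩ := exists_derived_le_ker
    ((wrMap (QuotientGroup.mk' (derivedSeries F d))).comp (L.Phi m))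
  have hn : (N.1 ⊓ ((wrMap (QuotientGroup.mk' (derivedSeries F d))).comp (L.Phi m)).ker).Normal :=
    inferInstance
  refine ⟨⟨N.1 ⊓ ((wrMap (QuotientGroup.mk' (derivedSeries F d))).comp (L.Phi m)).ker, hn⟩,
    ⟨⟨max d₁ d₂, ?_⟩, ?_⟩, ?_⟩
  · exact le_inf ((derivedSeries_antitone _ (le_max_left _ _)).trans h₁)
      ((derivedSeries_antitone _ (le_max_right _ _)).trans h₂)
  · exact inf_le_left.trans hP
  · intro w hw
    refine and_congr_right fun _ => ?_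
    change w ∈ (L.Phi m).ker ↔ L.σ w ∈ SK m (derivedSeries F d)
    rw [mem_SK]
    constructor
    · intro h
      have h : H460.Phi m (L.σ w) = 1 := h
      rw [h]
      exact ⟨rfl, fun q => one_mem _⟩
    · rintro ⟨h1, h2⟩
      change H460.Phi m (L.σ w) = 1
      refine Wr.ext (funext fun q => ?_) h1
      exact hd _ ((norm_section m (L.σ w) q).trans (h' w hw)) (h2 q)

/-- Near every point of the closure there is a point whose group contains a free group. -/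
theorem Over.exists_cut_mem {U : Set (MarkedGroup n)} (hU : IsOpen U)
    (h : (U ∩ closure L.AA).Nonempty) :
    ∃ N ∈ U ∩ closure L.AA, ∃ f : FreeGroup (Fin 2) →* N.Grp, Function.Injective f := by
  obtain ⟨x, hxU, hx⟩ := h
  obtain ⟨N, hNU, hN⟩ := mem_closure_iff.1 hx U hU hxU
  obtain ⟨R, hR⟩ := MarkedGroup.exists_ball_subset hU hNU
  obtain ⟨m₁, h₁⟩ := L.cut_near hN.2 R
  obtain ⟨m₂, h₂⟩ := L.exists_injective
  refine ⟨L.cut (max m₁ m₂) N, ⟨hR _ (h₁ _ (le_max_left _ _)), L.cut_mem_closure hN _⟩, ?_⟩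
  exact h₂ _ (le_max_right _ _) _ inf_le_right

/-- The groups near a group which maps onto `ℤ ≀ ℤ`. -/
theorem Over.exists_near {N : MarkedGroup n} (hN : N.1 ≤ L.Psi.ker) {U : Set (MarkedGroup n)}
    (hU : IsOpen U) (hNU : N ∈ U) :
    ∃ N' ∈ U, ∃ f : FreeGroup (Fin 2) →* N'.Grp, Function.Injective f := by
  obtain ⟨R, hR⟩ := MarkedGroup.exists_ball_subset hU hNU
  obtain ⟨m₁, h₁⟩ := L.cut_near hN R
  obtain ⟨m₂, h₂⟩ := L.exists_injective
  exact ⟨L.cut (max m₁ m₂) N, hR _ (h₁ _ (le_max_left _ _)),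
    h₂ _ (le_max_right _ _) _ inf_le_right⟩

end lift

/-- The balls are open and closed. -/
theorem exists_clopen {n : ℕ} {U : Set (MarkedGroup n)} (hU : IsOpen U) {N : MarkedGroup n}
    (hN : N ∈ U) : ∃ V : Set (MarkedGroup n), IsClopen V ∧ N ∈ V ∧ V ⊆ U := by
  obtain ⟨R, hR⟩ := MarkedGroup.exists_ball_subset hU hN
  refine ⟨⋂ w ∈ {w : FreeGroup (Fin n) | w.norm ≤ R}, {N' | N'.char w = N.char w}, ?_, ?_, ?_⟩
  · refine (MarkedGroup.finite_norm_le (n := n) R).isClopen_biInter fun w _ => ?_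
    have hc : Continuous fun f : FreeGroup (Fin n) → Bool => f w := continuous_apply w
    have hd : Continuous (MarkedGroup.char (n := n)) := continuous_induced_dom
    exact (isClopen_discrete {N.char w}).preimage (hc.comp hd)
  · simp
  · intro N' hN'
    refine hR N' fun w hw => ?_
    have h1 : N'.char w = N.char w := mem_iInter₂.1 hN' w hw
    rw [← char_eq_true, ← char_eq_true, h1]

/-- **The local criterion.** -/
theorem good_of_local {n : ℕ} (N₀ : MarkedGroup n) (hs : Group.IsSolvable N₀.Grp)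
    (ho : MapsOntoZwrZ N₀.Grp) (U : Set (MarkedGroup n)) (hU : IsOpen U) (hN₀ : N₀ ∈ U)
    (S : ℕ → Set (MarkedGroup n)) (hS : ∀ k, IsClosed (S k))
    (hSP : U ∩ (⋃ k, S k) = U ∩ {N : MarkedGroup n | Good N.Grp}) :
    Good (FreeGroup (Fin 2)) ∨
      ∃ N ∈ U, Group.IsSolvable N.Grp ∧ MapsOntoZwrZ N.Grp ∧ ¬ Good N.Grp := by
  by_cases h : ∃ N ∈ U, Group.IsSolvable N.Grp ∧ MapsOntoZwrZ N.Grp ∧ ¬ Good N.Grp
  · exact Or.inr h
  left
  push Not at h
  obtain ⟨L, hL⟩ := exists_over N₀ ho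
  obtain ⟨V, hV, hNV, hVU⟩ := exists_clopen hU hN₀
  have hP : IsGδ ({N : MarkedGroup n | Good N.Grp} ∩ V) := (isGδ_good n).inter hV.isOpen.isGδ
  have hAA : ∀ N ∈ L.AA ∩ V, N ∈ {N : MarkedGroup n | Good N.Grp} ∩ V := fun N hN =>
    ⟨h N (hVU hN.2) ((isSolvable_iff N).2 hN.1.1) (mapsOnto_of_le L N hN.1.2), hN.2⟩
  have hU2 : (⋃ k, S k ∩ V) = {N : MarkedGroup n | Good N.Grp} ∩ V := by
    rw [← iUnion_inter]
    have h1 : V ∩ (U ∩ (⋃ k, S k)) = V ∩ (U ∩ {N : MarkedGroup n | Good N.Grp}) := by rw [hSP]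
    rw [← inter_assoc, ← inter_assoc, inter_eq_left.2 hVU] at h1
    rw [inter_comm _ V, inter_comm _ V]
    exact h1
  obtain ⟨U', hU', h1, h2⟩ := exists_open_of_Gdelta_Fsigma hP (fun k => S k ∩ V)
    (fun k => (hS k).inter hV.isClosed) hU2 rfl hAA
    ⟨N₀, ⟨(isSolvable_iff N₀).1 hs, hL⟩, hNV⟩
  have h3 : ((U' ∩ V) ∩ closure L.AA).Nonempty := by
    obtain ⟨x, hx, hxc⟩ := h1
    exact ⟨x, ⟨hx, closure_minimal inter_subset_right hV.isClosed hxc⟩,
      closure_mono inter_subset_left hxc⟩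
  obtain ⟨N, ⟨⟨hN1, hN2⟩, hN3⟩, f, hf⟩ := L.exists_cut_mem (hU'.inter hV.isOpen) h3
  have h4 : N ∈ closure (L.AA ∩ V) := by
    rw [inter_comm]
    exact hV.isOpen.inter_closure ⟨hN2, hN3⟩
  exact good_of_injective f hf (h2 ⟨hN1, h4⟩).1

/-- If all groups near a group which maps onto `ℤ ≀ ℤ` are good, `F_2` is good. -/
theorem good_of_mem_nhds {n : ℕ} (N₀ : MarkedGroup n) (ho : MapsOntoZwrZ N₀.Grp)
    (h : {N : MarkedGroup n | Good N.Grp} ∈ 𝓝 N₀) : Good (FreeGroup (Fin 2)) := by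
  obtain ⟨U, hUs, hU, hN⟩ := mem_nhds_iff.1 h
  obtain ⟨L, hL⟩ := exists_over N₀ ho
  obtain ⟨N, hN, f, hf⟩ := L.exists_near hL hU hN
  exact good_of_injective f hf (hUs hN)

/-- **The closed sets.** -/
theorem exists_closed_at {n : ℕ} (N₀ : MarkedGroup n) (hs : Group.IsSolvable N₀.Grp)
    (ho : MapsOntoZwrZ N₀.Grp) : ∃ C : Set (MarkedGroup n), IsClosed C ∧ N₀ ∈ C ∧
    C ⊆ closure {N | N ∈ C ∧ Group.IsSolvable N.Grp} ∧
    C ⊆ closure {N | N ∈ C ∧ ∃ f : FreeGroup (Fin 2) →* N.Grp, Function.Injective f} := by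
  obtain ⟨L, hL⟩ := exists_over N₀ ho
  refine ⟨closure L.AA, isClosed_closure, subset_closure ⟨(isSolvable_iff N₀).1 hs, hL⟩, ?_, ?_⟩
  · exact closure_mono fun N hN => ⟨subset_closure hN, (isSolvable_iff N).2 hN.1⟩
  · intro x hx
    rw [mem_closure_iff]
    intro U hU hxU
    obtain ⟨N, ⟨h1, h2⟩, h3⟩ := L.exists_cut_mem hU ⟨x, hxU, hx⟩
    exact ⟨N, h1, h2, h3⟩

theorem zWrZ_solvable : Group.IsSolvable zWrZ.Grp := (isSolvable_iff zWrZ).2 zWrZ_mem.1

theorem zWrZ_mapsOnto : MapsOntoZwrZ zWrZ.Grp := by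
  refine ⟨QuotientGroup.lift zWrZ.1 Psi le_rfl, ?_⟩
  apply le_antisymm
  · rintro _ ⟨x, rfl⟩
    obtain ⟨w, rfl⟩ := QuotientGroup.mk'_surjective zWrZ.1 x
    exact ⟨w, rfl⟩
  · rintro _ ⟨w, rfl⟩
    exact ⟨QuotientGroup.mk' zWrZ.1 w, rfl⟩

/-- For `n ≥ 2` some solvable group with `n` marked generators maps onto `ℤ ≀ ℤ`. -/
theorem exists_base {n : ℕ} (hn : 2 ≤ n) :
    ∃ N : MarkedGroup n, Group.IsSolvable N.Grp ∧ MapsOntoZwrZ N.Grp := by
  obtain ⟨e⟩ := exists_equiv hn zWrZ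
  have h1 : Group.IsSolvable zWrZ.Grp := zWrZ_solvable
  obtain ⟨f, hf⟩ := zWrZ_mapsOnto
  refine ⟨pull zWrZ, Group.isSolvable_of_isSolvable_injective (f := e.toMonoidHom) e.injective,
    f.comp e.toMonoidHom, ?_⟩
  rw [← hf]
  apply le_antisymm
  · rintro _ ⟨x, rfl⟩
    exact ⟨e x, rfl⟩
  · rintro _ ⟨x, rfl⟩
    obtain ⟨y, rfl⟩ := e.surjective x
    exact ⟨y, rfl⟩

/-- **The criterion**, for closed, open and `F_σ` sets. -/
theorem good_of_global {n : ℕ} (hn : 2 ≤ n)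
    (h : IsOpen {N : MarkedGroup n | Good N.Grp} ∨ ∃ S : ℕ → Set (MarkedGroup n),
      (∀ k, IsClosed (S k)) ∧ (⋃ k, S k) = {N : MarkedGroup n | Good N.Grp}) :
    Good (FreeGroup (Fin 2)) ∨
      ∃ N : MarkedGroup 2, Group.IsSolvable N.Grp ∧ MapsOntoZwrZ N.Grp ∧ ¬ Good N.Grp := by
  have hpre : pull (n := n) ⁻¹' {N : MarkedGroup n | Good N.Grp} =
      {N : MarkedGroup 2 | Good N.Grp} := by
    ext N
    obtain ⟨e⟩ := exists_equiv hn N
    change Good (pull (n := n) N).Grp ↔ Good N.Grp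
    exact ⟨fun h => good_of_injective e.symm.toMonoidHom e.symm.injective h,
      fun h => good_of_injective e.toMonoidHom e.injective h⟩
  rcases h with h | ⟨S, hS, hSP⟩
  · by_cases hz : Good zWrZ.Grp
    · left
      have h1 : IsOpen {N : MarkedGroup 2 | Good N.Grp} := by
        rw [← hpre]
        exact h.preimage continuous_pull
      exact good_of_nhds (h1.mem_nhds hz)
    · exact Or.inr ⟨zWrZ, zWrZ_solvable, zWrZ_mapsOnto, hz⟩
  · have h1 : (⋃ k, pull (n := n) ⁻¹' (S k)) = {N : MarkedGroup 2 | Good N.Grp} := by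
      rw [← preimage_iUnion, hSP, hpre]
    rcases good_of_local zWrZ zWrZ_solvable zWrZ_mapsOnto univ isOpen_univ (mem_univ _)
      (fun k => pull (n := n) ⁻¹' (S k)) (fun k => (hS k).preimage continuous_pull)
      (by rw [h1]) with h2 | ⟨N, _, h2⟩
    · exact Or.inl h2
    · exact Or.inr ⟨N, h2⟩

end Vale.Agent.P215.R2.H460
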