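import Vale.Agent.P215.R2.H460.Dense
import Vale.Agent.P215.H788.Final

/-!
# P215: if the good marked groups form an `F_σ` set, then `F_2` is good (or some solvable group is
not good)
-/

noncomputable section

namespace Vale.Agent.P215.R2.H460

open Vale.Agent.P215.H788 Topology Set

/-- Subgroups of good groups are good. -/
theorem good_of_injective {Λ Γ : Type} [Group Λ] [Group Γ] (f : Λ →* Γ)
    (hf : Function.Injective f) (h : Good Γ) : Good Λ := by
  intro G φ
  obtain ⟨D, hD⟩ := h G (f.comp φ)
  refine ⟨D, fun k c l => hf ?_⟩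
  rw [map_one]
  exact hD k c l

/-- The group `ℤ ≀ ℤ` with its standard generators, as a marked group: the kernel of the
homomorphism from the free group. -/
def zWrZ : MarkedGroup 2 := ⟨Psi.ker, inferInstance⟩

theorem zWrZ_mem : zWrZ ∈ AA := by
  have : Group.IsSolvable (Multiplicative ℤ) :=
    Group.isSolvable_of_comm fun a b => mul_comm a b
  have : Group.IsSolvable (Wr (Multiplicative ℤ)) := wr_isSolvable
  exact ⟨exists_derivedSeries_le_ker Psi, le_rfl⟩

theorem good_of_open {U : Set (MarkedGroup 2)} (hU : IsOpen U) (h : (U ∩ closure AA).Nonempty)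
    (hG : U ∩ closure AA ⊆ {N : MarkedGroup 2 | Good N.Grp}) : Good (FreeGroup (Fin 2)) := by
  obtain ⟨N, hN, f, hf⟩ := exists_cut_mem hU h
  exact good_of_injective f hf (hG hN)

/-- If all groups near `ℤ ≀ ℤ` are good, `F_2` is good. -/
theorem good_of_nhds (h : {N : MarkedGroup 2 | Good N.Grp} ∈ 𝓝 zWrZ) :
    Good (FreeGroup (Fin 2)) := by
  obtain ⟨U, hUs, hU, hL⟩ := mem_nhds_iff.1 h
  exact good_of_open hU ⟨_, hL, subset_closure zWrZ_mem⟩ (inter_subset_left.trans hUs)

theorem good_of_Fsigma_two (S : ℕ → Set (MarkedGroup 2)) (hS : ∀ k, IsClosed (S k))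
    (hSP : (⋃ k, S k) = {N : MarkedGroup 2 | Good N.Grp}) :
    Good (FreeGroup (Fin 2)) ∨ ∃ N : MarkedGroup 2, Group.IsSolvable N.Grp ∧ ¬ Good N.Grp := by
  by_cases h : ∃ N : MarkedGroup 2, Group.IsSolvable N.Grp ∧ ¬ Good N.Grp
  · exact Or.inr h
  · left
    push Not at h
    obtain ⟨U, hU, h1, h2⟩ := exists_open_of_Gdelta_Fsigma (isGδ_good 2) S hS hSP rfl
      (fun N (hN : N ∈ AA) => h N (isSolvable_quotient N hN.1)) AA_nonempty
    exact good_of_open hU h1 h2

section rank

variable {n : ℕ} (hn : 2 ≤ n)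

/-- The homomorphism `F_n → F_2` which kills all generators except for the first two. -/
def proj (n : ℕ) : FreeGroup (Fin n) →* FreeGroup (Fin 2) :=
  FreeGroup.lift fun i => if h : (i : ℕ) < 2 then FreeGroup.of ⟨i, h⟩ else 1

include hn in
theorem proj_surjective : Function.Surjective (proj n) := by
  rw [← MonoidHom.range_eq_top, eq_top_iff, ← FreeGroup.closure_range_of, Subgroup.closure_le]
  rintro _ ⟨i, rfl⟩
  refine ⟨FreeGroup.of ⟨i, i.2.trans_le hn⟩, ?_⟩
  have h2 : (i : ℕ) ≤ 1 := by omega
  simp [proj, h2]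

/-- The marked group with two generators, with further trivial generators. -/
def pull (N : MarkedGroup 2) : MarkedGroup n :=
  ⟨N.1.comap (proj n), inferInstance⟩

theorem continuous_pull : Continuous (pull (n := n)) := by
  rw [continuous_induced_rng]
  refine continuous_pi fun w => ?_
  have h : (fun N : MarkedGroup 2 => (MarkedGroup.char ∘ pull (n := n)) N w) =
      fun N : MarkedGroup 2 => N.char (proj n w) := by
    funext N
    exact Bool.eq_iff_iff.2 ((char_eq_true _ _).trans (char_eq_true N (proj n w)).symm)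
  rw [h]
  have hc : Continuous fun f : FreeGroup (Fin 2) → Bool => f (proj n w) :=
    continuous_apply (proj n w)
  have hd : Continuous (MarkedGroup.char (n := 2)) := continuous_induced_dom
  exact hc.comp hd

include hn in
theorem exists_equiv (N : MarkedGroup 2) : Nonempty ((pull (n := n) N).Grp ≃* N.Grp) := by
  let g : FreeGroup (Fin n) →* N.Grp := (QuotientGroup.mk' N.1).comp (proj n)
  have hg : Function.Surjective g := (QuotientGroup.mk'_surjective N.1).comp (proj_surjective hn)
  have hk : g.ker = (pull (n := n) N).1 := by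
    ext w
    rw [MonoidHom.mem_ker]
    exact QuotientGroup.eq_one_iff (proj n w)
  exact ⟨(QuotientGroup.quotientMulEquivOfEq hk.symm).trans
    (QuotientGroup.quotientKerEquivOfSurjective g hg)⟩

include hn in
/-- **The criterion.** -/
theorem good_of_Fsigma (S : ℕ → Set (MarkedGroup n)) (hS : ∀ k, IsClosed (S k))
    (hSP : (⋃ k, S k) = {N : MarkedGroup n | Good N.Grp}) :
    Good (FreeGroup (Fin 2)) ∨ ∃ N : MarkedGroup 2, Group.IsSolvable N.Grp ∧ ¬ Good N.Grp := by
  refine good_of_Fsigma_two (fun k => pull (n := n) ⁻¹' (S k))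
    (fun k => (hS k).preimage continuous_pull) ?_
  rw [← preimage_iUnion, hSP]
  ext N
  obtain ⟨e⟩ := exists_equiv hn N
  change Good (pull (n := n) N).Grp ↔ Good N.Grp
  exact ⟨fun h => good_of_injective e.symm.toMonoidHom e.symm.injective h,
    fun h => good_of_injective e.toMonoidHom e.injective h⟩

end rank

end Vale.Agent.P215.R2.H460
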