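import Vale.Agent.P215.R2.H460.Res

/-!
# P215: the homomorphisms `F → F ≀ ℤ` and `F → ℤ ≀ ℤ`
-/

noncomputable section

namespace Vale.Agent.P215.R2.H460

open Vale.Agent.P215.H788

/-- The free group of rank two. -/
abbrev F : Type := FreeGroup (Fin 2)

/-- The first generator. -/
def tF : F := FreeGroup.of 0

/-- The second generator. -/
def bF : F := FreeGroup.of 1

/-- The homomorphism `F → F ≀ ℤ`: `t` is the shift, `b` has the sections `t` at `0`, `b` at `m`. -/
def Phi (m : ℕ) : F →* Wr F := FreeGroup.lift fun i =>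
  if i = 0 then ⟨fun _ => 1, 1⟩ else ⟨fun q => if q = 0 then tF else if q = m then bF else 1, 0⟩

/-- The homomorphism `F → ℤ ≀ ℤ`: `t` is the shift, `b` has the section `1` at `0`. -/
def Psi : F →* Wr (Multiplicative ℤ) := FreeGroup.lift fun i =>
  if i = 0 then ⟨fun _ => 1, 1⟩ else ⟨fun q => if q = 0 then Multiplicative.ofAdd 1 else 1, 0⟩

theorem Phi_zero (m : ℕ) : Phi m (FreeGroup.of 0) = ⟨fun _ => 1, 1⟩ := by simp [Phi]

theorem Phi_one (m : ℕ) : Phi m (FreeGroup.of 1) =
    ⟨fun q => if q = 0 then tF else if q = m then bF else 1, 0⟩ := by simp [Phi]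

theorem Psi_zero : Psi (FreeGroup.of 0) = ⟨fun _ => 1, 1⟩ := by simp [Psi]

theorem Psi_one : Psi (FreeGroup.of 1) =
    ⟨fun q => if q = 0 then Multiplicative.ofAdd 1 else 1, 0⟩ := by simp [Psi]

/-- The homomorphism which kills `b`. -/
def rF : F →* Multiplicative ℤ := FreeGroup.lift fun i => if i = 0 then Multiplicative.ofAdd 1 else 1

theorem wrMap_Phi (m : ℕ) : (wrMap rF).comp (Phi m) = Psi := by
  apply FreeGroup.ext_hom
  intro i
  rw [MonoidHom.comp_apply]
  fin_cases i
  · change wrMap rF (Phi m (FreeGroup.of 0)) = Psi (FreeGroup.of 0)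
    rw [Phi_zero, Psi_zero]
    ext q <;> simp
  · change wrMap rF (Phi m (FreeGroup.of 1)) = Psi (FreeGroup.of 1)
    rw [Phi_one, Psi_one]
    refine Wr.ext (funext fun q => ?_) rfl
    rw [wrMap_s]
    simp only
    split_ifs
    · simp [rF, tF]
    · simp [rF, bF]
    · simp

theorem Phi_e (m : ℕ) (w : F) : (Phi m w).e = (Psi w).e := by
  rw [← wrMap_Phi m]
  rfl

theorem ker_Phi_le (m : ℕ) : (Phi m).ker ≤ Psi.ker := by
  intro w hw
  rw [MonoidHom.mem_ker] at hw ⊢
  rw [← wrMap_Phi m, MonoidHom.comp_apply, hw, map_one]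

/-- the shift of a letter -/
def eA (a : Fin 2 × Bool) : ℤ := if a.1 = 0 then (if a.2 then 1 else -1) else 0

theorem Phi_mk_e (m : ℕ) (a : Fin 2 × Bool) : (Phi m (FreeGroup.mk [a])).e = eA a := by
  obtain ⟨i, ε⟩ := a
  fin_cases i <;> cases ε
  · change (Phi m (FreeGroup.mk [(0, false)])).e = _
    rw [mk_false, map_inv, Wr.inv_e, Phi_zero]
    simp [eA]
  · change (Phi m (FreeGroup.mk [(0, true)])).e = _
    rw [mk_true, Phi_zero]
    simp [eA]
  · change (Phi m (FreeGroup.mk [(1, false)])).e = _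
    rw [mk_false, map_inv, Wr.inv_e, Phi_one]
    simp [eA]
  · change (Phi m (FreeGroup.mk [(1, true)])).e = _
    rw [mk_true, Phi_one]
    simp [eA]

theorem abs_eA (a : Fin 2 × Bool) : -1 ≤ eA a ∧ eA a ≤ 1 := by
  unfold eA
  split_ifs <;> constructor <;> norm_num

theorem Psi_mk_e (a : Fin 2 × Bool) : (Psi (FreeGroup.mk [a])).e = eA a := by
  rw [← Phi_e 0, Phi_mk_e]

/-- the sections of a letter near `0` -/
theorem letter_near (m : ℕ) (a : Fin 2 × Bool) (q : ℤ) (hq : q < m) :
    (Phi m (FreeGroup.mk [a])).s q = zpowersHom F tF ((Psi (FreeGroup.mk [a])).s q) := by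
  obtain ⟨i, ε⟩ := a
  have h2 : q ≠ (m : ℤ) := hq.ne
  fin_cases i <;> cases ε
  · change (Phi m (FreeGroup.mk [(0, false)])).s q = zpowersHom F tF ((Psi (FreeGroup.mk [(0, false)])).s q)
    rw [mk_false, map_inv, map_inv, Wr.inv_s, Wr.inv_s, Phi_zero, Psi_zero]
    simp
  · change (Phi m (FreeGroup.mk [(0, true)])).s q = zpowersHom F tF ((Psi (FreeGroup.mk [(0, true)])).s q)
    rw [mk_true, Phi_zero, Psi_zero]
    simp
  · change (Phi m (FreeGroup.mk [(1, false)])).s q = zpowersHom F tF ((Psi (FreeGroup.mk [(1, false)])).s q)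
    rw [mk_false, map_inv, map_inv, Wr.inv_s, Wr.inv_s, Phi_one, Psi_one]
    by_cases h : q = 0
    · simp [h]
    · simp [h, h2]
  · change (Phi m (FreeGroup.mk [(1, true)])).s q = zpowersHom F tF ((Psi (FreeGroup.mk [(1, true)])).s q)
    rw [mk_true, Phi_one, Psi_one]
    by_cases h : q = 0
    · simp [h]
    · simp [h, h2]

/-- the sections of a letter near `m` -/
theorem letter_far (m : ℕ) (a : Fin 2 × Bool) (q : ℤ) (hq : 0 < q) :
    (Phi m (FreeGroup.mk [a])).s q = zpowersHom F bF ((Psi (FreeGroup.mk [a])).s (q - m)) := by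
  obtain ⟨i, ε⟩ := a
  have h2 : q ≠ 0 := hq.ne'
  fin_cases i <;> cases ε
  · change (Phi m (FreeGroup.mk [(0, false)])).s q =
      zpowersHom F bF ((Psi (FreeGroup.mk [(0, false)])).s (q - m))
    rw [mk_false, map_inv, map_inv, Wr.inv_s, Wr.inv_s, Phi_zero, Psi_zero]
    simp
  · change (Phi m (FreeGroup.mk [(0, true)])).s q =
      zpowersHom F bF ((Psi (FreeGroup.mk [(0, true)])).s (q - m))
    rw [mk_true, Phi_zero, Psi_zero]
    simp
  · change (Phi m (FreeGroup.mk [(1, false)])).s q =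
      zpowersHom F bF ((Psi (FreeGroup.mk [(1, false)])).s (q - m))
    rw [mk_false, map_inv, map_inv, Wr.inv_s, Wr.inv_s, Phi_one, Psi_one]
    by_cases h : q = m
    · have hm : m ≠ 0 := by
        rintro rfl
        exact h2 (by rw [h]; rfl)
      simp [h, hm]
    · have h3 : q - m ≠ 0 := sub_ne_zero.2 h
      simp [h, h2, h3]
  · change (Phi m (FreeGroup.mk [(1, true)])).s q =
      zpowersHom F bF ((Psi (FreeGroup.mk [(1, true)])).s (q - m))
    rw [mk_true, Phi_one, Psi_one]
    by_cases h : q = m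
    · have hm : m ≠ 0 := by
        rintro rfl
        exact h2 (by rw [h]; rfl)
      simp [h, hm]
    · have h3 : q - m ≠ 0 := sub_ne_zero.2 h
      simp [h, h2, h3]

theorem mk_nil : (FreeGroup.mk [] : F) = 1 := rfl

theorem near (m : ℕ) (L : List (Fin 2 × Bool)) : ∀ q : ℤ, q + L.length < m →
    (Phi m (FreeGroup.mk L)).s q = zpowersHom F tF ((Psi (FreeGroup.mk L)).s q) := by
  induction L with
  | nil =>
    intro q _
    rw [mk_nil, map_one, map_one, Wr.one_s, Wr.one_s, map_one]
  | cons a L ih =>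
    intro q hq
    rw [List.length_cons] at hq
    push_cast at hq
    have h1 := abs_eA a
    rw [mk_cons, map_mul, map_mul, Wr.mul_s, Wr.mul_s, map_mul, Phi_mk_e, Psi_mk_e,
      letter_near m a q (by omega), ih (q - eA a) (by omega)]

theorem far (m : ℕ) (L : List (Fin 2 × Bool)) : ∀ q : ℤ, (L.length : ℤ) < q →
    (Phi m (FreeGroup.mk L)).s q = zpowersHom F bF ((Psi (FreeGroup.mk L)).s (q - m)) := by
  induction L with
  | nil =>
    intro q _
    rw [mk_nil, map_one, map_one, Wr.one_s, Wr.one_s, map_one]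
  | cons a L ih =>
    intro q hq
    rw [List.length_cons] at hq
    push_cast at hq
    have h1 := abs_eA a
    have h2 : q - eA a - m = q - m - eA a := by ring
    rw [mk_cons, map_mul, map_mul, Wr.mul_s, Wr.mul_s, map_mul, Phi_mk_e, Psi_mk_e,
      letter_far m a q (by omega), ih (q - eA a) (by omega), h2]

/-- The kernels of `Phi m` and `Psi` have the same elements of length less than `m / 2`. -/
theorem mem_ker_Phi (m : ℕ) (w : F) (hw : 2 * w.norm < m) (h : w ∈ Psi.ker) : w ∈ (Phi m).ker := by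
  rw [MonoidHom.mem_ker] at h ⊢
  have hL : w = FreeGroup.mk w.toWord := FreeGroup.mk_toWord.symm
  have hn : w.toWord.length = w.norm := rfl
  refine Wr.ext (funext fun q => ?_) ?_
  · rw [Wr.one_s]
    by_cases hq : q + w.toWord.length < m
    · rw [hL, near m _ q hq, ← hL, h, Wr.one_s, map_one]
    · rw [hL, far m _ q (by omega), ← hL, h, Wr.one_s, map_one]
  · rw [Phi_e, h]
    rfl

/-- Sections do not increase the length. -/
theorem letter_norm (m : ℕ) (a : Fin 2 × Bool) (q : ℤ) :
    ((Phi m (FreeGroup.mk [a])).s q).norm ≤ 1 := by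
  have key : ∀ q : ℤ, (if q = 0 then tF else if q = m then bF else (1 : F)).norm ≤ 1 := by
    intro q
    split_ifs
    · simp [tF]
    · simp [bF]
    · simp
  obtain ⟨i, ε⟩ := a
  fin_cases i <;> cases ε
  · change ((Phi m (FreeGroup.mk [(0, false)])).s q).norm ≤ 1
    rw [mk_false, map_inv, Wr.inv_s, Phi_zero]
    simp
  · change ((Phi m (FreeGroup.mk [(0, true)])).s q).norm ≤ 1
    rw [mk_true, Phi_zero]
    simp
  · change ((Phi m (FreeGroup.mk [(1, false)])).s q).norm ≤ 1
    rw [mk_false, map_inv, Wr.inv_s, Phi_one, FreeGroup.norm_inv_eq]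
    exact key _
  · change ((Phi m (FreeGroup.mk [(1, true)])).s q).norm ≤ 1
    rw [mk_true, Phi_one]
    exact key _

theorem norm_section (m : ℕ) (w : F) (q : ℤ) : ((Phi m w).s q).norm ≤ w.norm := by
  have key : ∀ (L : List (Fin 2 × Bool)) (q : ℤ),
      ((Phi m (FreeGroup.mk L)).s q).norm ≤ L.length := by
    intro L
    induction L with
    | nil =>
      intro q
      rw [mk_nil, map_one, Wr.one_s]
      simp
    | cons a L ih =>
      intro q
      rw [mk_cons, map_mul, Wr.mul_s, List.length_cons]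
      refine (FreeGroup.norm_mul_le _ _).trans ?_
      have h1 := letter_norm m a q
      have h2 := ih (q - (Phi m (FreeGroup.mk [a])).e)
      omega
  have h := key w.toWord q
  rw [FreeGroup.mk_toWord] at h
  exact h

/-- The endomorphism of `F` with images in the base group, a right inverse of the section at `0`. -/
def lam (m : ℕ) : F →* F := FreeGroup.lift fun i =>
  if i = 0 then bF else tF ^ (-(m : ℤ)) * bF * tF ^ (m : ℤ)

theorem Phi_tF_zpow (m : ℕ) (k : ℤ) : Phi m (tF ^ k) = ⟨fun _ => 1, k⟩ := by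
  have h : ∀ k : ℕ, Phi m (tF ^ k) = ⟨fun _ => 1, k⟩ := by
    intro k
    induction k with
    | zero => rw [pow_zero, map_one]; rfl
    | succ k ih =>
      rw [pow_succ, map_mul, ih, tF, Phi_zero]
      refine Wr.ext (funext fun q => ?_) ?_
      · simp
      · simp
  cases k with
  | ofNat k => simpa using h k
  | negSucc k =>
    rw [zpow_negSucc, map_inv, h]
    refine Wr.ext (funext fun q => ?_) ?_
    · simp
    · simp only [Wr.inv_e]; rfl

theorem Phi_lam (m : ℕ) (hm : m ≠ 0) (v : F) : (Phi m (lam m v)).e = 0 ∧ (Phi m (lam m v)).s 0 = v := by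
  have hm' : (m : ℤ) ≠ 0 := by exact_mod_cast hm
  induction v using FreeGroup.induction_on with
  | C1 => simp
  | of i =>
    fin_cases i
    · change (Phi m (lam m (FreeGroup.of 0))).e = 0 ∧
        (Phi m (lam m (FreeGroup.of 0))).s 0 = FreeGroup.of 0
      have : lam m (FreeGroup.of 0) = FreeGroup.of 1 := by simp [lam, bF]
      rw [this, Phi_one]
      exact ⟨rfl, rfl⟩
    · change (Phi m (lam m (FreeGroup.of 1))).e = 0 ∧
        (Phi m (lam m (FreeGroup.of 1))).s 0 = FreeGroup.of 1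
      have : lam m (FreeGroup.of 1) = tF ^ (-(m : ℤ)) * bF * tF ^ (m : ℤ) := by simp [lam]
      rw [this, map_mul, map_mul, Phi_tF_zpow, Phi_tF_zpow, bF, Phi_one]
      constructor
      · simp
      · simp [hm, bF]
  | inv_of i ih =>
    rw [map_inv, map_inv, Wr.inv_e, Wr.inv_s, ih.1, add_zero, ih.2]
    exact ⟨rfl, rfl⟩
  | mul x y hx hy =>
    rw [map_mul, map_mul, Wr.mul_e, Wr.mul_s, hx.1, hy.1, hx.2, sub_zero, hy.2]
    exact ⟨rfl, rfl⟩

/-- The free group embeds in the quotients of `F` by the normal subgroups of `ker (Phi m)`. -/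
theorem exists_injective (m : ℕ) (hm : m ≠ 0) (N : Subgroup F) [N.Normal] (hN : N ≤ (Phi m).ker) :
    ∃ f : FreeGroup (Fin 2) →* F ⧸ N, Function.Injective f := by
  refine ⟨(QuotientGroup.mk' N).comp (lam m), (injective_iff_map_eq_one _).2 fun v hv => ?_⟩
  have h1 : lam m v ∈ N := (QuotientGroup.eq_one_iff (lam m v)).1 hv
  have h2 := Phi_lam m hm v
  rw [MonoidHom.mem_ker.1 (hN h1)] at h2
  exact h2.2.symm

/-- The elements of `F` without shift whose sections are in `K`. -/
def SK (m : ℕ) (K : Subgroup F) [K.Normal] : Subgroup F :=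
  ((wrMap (QuotientGroup.mk' K)).comp (Phi m)).ker

instance (m : ℕ) (K : Subgroup F) [K.Normal] : (SK m K).Normal :=
  MonoidHom.normal_ker _

theorem mem_SK {m : ℕ} {K : Subgroup F} [K.Normal] {w : F} :
    w ∈ SK m K ↔ (Phi m w).e = 0 ∧ ∀ q, (Phi m w).s q ∈ K := by
  unfold SK
  rw [MonoidHom.mem_ker, MonoidHom.comp_apply]
  constructor
  · intro h
    refine ⟨congrArg Wr.e h, fun q => ?_⟩
    exact (QuotientGroup.eq_one_iff _).1 (congrArg (fun x : Wr (F ⧸ K) => x.s q) h)
  · rintro ⟨h1, h2⟩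
    exact Wr.ext (funext fun q => (QuotientGroup.eq_one_iff _).2 (h2 q)) h1

end Vale.Agent.P215.R2.H460
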