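import Vale.Agent.P215.H788.Ball

/-!
# P215: wreath products with `ℤ`, and free groups are residually solvable
-/

noncomputable section

namespace Vale.Agent.P215.R2.H460

open Vale.Agent.P215.H788

/-- The wreath product with `ℤ` is a functor. -/
def wrMap {H K : Type} [Group H] [Group K] (f : H →* K) : Wr H →* Wr K where
  toFun x := ⟨fun q => f (x.s q), x.e⟩
  map_one' := by ext q <;> simp
  map_mul' x y := by ext q <;> simp

@[simp] theorem wrMap_s {H K : Type} [Group H] [Group K] (f : H →* K) (x : Wr H) (q : ℤ) :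
    (wrMap f x).s q = f (x.s q) := rfl

@[simp] theorem wrMap_e {H K : Type} [Group H] [Group K] (f : H →* K) (x : Wr H) :
    (wrMap f x).e = x.e := rfl

/-- The wreath product of a solvable group with `ℤ` is solvable. -/
theorem wr_isSolvable {H : Type} [Group H] [Group.IsSolvable H] : Group.IsSolvable (Wr H) := by
  let g : Wr H →* Multiplicative ℤ := Wr.eHom
  have h1 : Group.IsSolvable g.ker := by
    let φ : g.ker →* (ℤ → H) :=
      { toFun := fun u q => u.1.s q
        map_one' := rfl
        map_mul' := by
          intro u v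
          funext q
          have hu : u.1.e = 0 := Multiplicative.ofAdd.injective u.2
          simp [hu] }
    have := isSolvable_pi (ι := ℤ) (H := H)
    refine Group.isSolvable_of_isSolvable_injective (f := φ) ?_
    intro u v huv
    have hu : u.1.e = 0 := Multiplicative.ofAdd.injective u.2
    have hv : v.1.e = 0 := Multiplicative.ofAdd.injective v.2
    exact Subtype.ext (Wr.ext (funext fun q => congrFun huv q) (hu.trans hv.symm))
  exact Group.isSolvable_of_ker_le_range g.ker.subtype g (by simp)

theorem mk_cons {X : Type} (a : X × Bool) (L : List (X × Bool)) :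
    (FreeGroup.mk (a :: L) : FreeGroup X) = FreeGroup.mk [a] * FreeGroup.mk L := by
  rw [FreeGroup.mul_mk]
  rfl

theorem mk_true {X : Type} (x : X) : (FreeGroup.mk [(x, true)] : FreeGroup X) = FreeGroup.of x :=
  rfl

theorem mk_false {X : Type} (x : X) :
    (FreeGroup.mk [(x, false)] : FreeGroup X) = (FreeGroup.of x)⁻¹ := by
  rw [FreeGroup.of, FreeGroup.inv_mk]
  rfl

section theta

variable {X : Type} [DecidableEq X] (t : X)

/-- The homomorphism `F(X) → F(X × ℤ) ≀ ℤ`. -/
def theta : FreeGroup X →* Wr (FreeGroup (X × ℤ)) :=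
  FreeGroup.lift fun x => if x = t then ⟨fun _ => 1, 1⟩ else ⟨fun q => FreeGroup.of (x, q), 0⟩

/-- The homomorphism `F(X × ℤ) → F(X)`. -/
def eta : FreeGroup (X × ℤ) →* FreeGroup X :=
  FreeGroup.lift fun p => (FreeGroup.of t) ^ (-p.2) * FreeGroup.of p.1 * (FreeGroup.of t) ^ p.2

theorem theta_of (x : X) : theta t (FreeGroup.of x) =
    if x = t then ⟨fun _ => 1, 1⟩ else ⟨fun q => FreeGroup.of (x, q), 0⟩ := by
  simp [theta]

theorem eta_theta (w : FreeGroup X) : ∀ q : ℤ, eta t ((theta t w).s q) =
    (FreeGroup.of t) ^ (-q) * w * (FreeGroup.of t) ^ (q - (theta t w).e) := by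
  induction w using FreeGroup.induction_on with
  | C1 => intro q; simp
  | of x =>
    intro q
    rw [theta_of]
    by_cases h : x = t
    · subst h
      simp only [if_true, map_one]
      rw [zpow_sub, zpow_one, zpow_neg]
      group
    · simp [h, eta]
  | inv_of x ih =>
    intro q
    rw [map_inv, Wr.inv_s, Wr.inv_e, map_inv, ih]
    group
  | mul x y hx hy =>
    intro q
    rw [map_mul, Wr.mul_s, Wr.mul_e, map_mul, hx, hy]
    group

theorem theta_letter_norm (a : X × Bool) (q : ℤ) :
    ((theta t (FreeGroup.mk [a])).s q).norm ≤ if a.1 = t then 0 else 1 := by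
  obtain ⟨x, ε⟩ := a
  cases ε
  · rw [mk_false, map_inv, Wr.inv_s, FreeGroup.norm_inv_eq, theta_of]
    by_cases h : x = t
    · simp [h]
    · simp [h]
  · rw [mk_true, theta_of]
    by_cases h : x = t
    · simp [h]
    · simp [h]

theorem theta_norm_le (L : List (X × Bool)) : ∀ q : ℤ,
    ((theta t (FreeGroup.mk L)).s q).norm ≤ L.length := by
  induction L with
  | nil =>
    intro q
    have : (FreeGroup.mk [] : FreeGroup X) = 1 := rfl
    rw [this, map_one]
    simp
  | cons a L ih =>
    intro q
    rw [mk_cons, map_mul, Wr.mul_s]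
    refine (FreeGroup.norm_mul_le _ _).trans ?_
    have h1 := theta_letter_norm t a q
    have h2 := ih (q - (theta t (FreeGroup.mk [a])).e)
    rw [List.length_cons]
    split_ifs at h1 <;> omega

end theta

/-- Free groups are residually solvable. -/
theorem exists_solvable (n : ℕ) : ∀ (X : Type) [DecidableEq X] (w : FreeGroup X), w.norm ≤ n →
    w ≠ 1 → ∃ (Q : Type) (_ : Group Q) (φ : FreeGroup X →* Q), Group.IsSolvable Q ∧ φ w ≠ 1 := by
  induction n with
  | zero =>
    intro X _ w hw h1
    exact absurd (FreeGroup.norm_eq_zero.1 (Nat.le_zero.1 hw)) h1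
  | succ n ih =>
    intro X _ w hw h1
    obtain ⟨a, L, hL⟩ : ∃ a L, w.toWord = a :: L := by
      rcases hL : w.toWord with _ | ⟨a, L⟩
      · exact absurd (FreeGroup.toWord_eq_nil_iff.1 hL) h1
      · exact ⟨a, L, rfl⟩
    have hw2 : w = FreeGroup.mk (a :: L) := by rw [← hL, FreeGroup.mk_toWord]
    have hlen : L.length + 1 ≤ n + 1 := by
      have : w.norm = (a :: L).length := by rw [← hL]; rfl
      rw [List.length_cons] at this
      omega
    by_cases he : (theta a.1 w).e = 0
    · have h2 : ((theta a.1 w).s 0).norm ≤ n := by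
        rw [hw2, mk_cons, map_mul, Wr.mul_s]
        refine (FreeGroup.norm_mul_le _ _).trans ?_
        have h3 := theta_letter_norm a.1 a 0
        have h4 := theta_norm_le a.1 L (0 - (theta a.1 (FreeGroup.mk [a])).e)
        rw [if_pos rfl] at h3
        omega
      have h3 : (theta a.1 w).s 0 ≠ 1 := by
        intro h
        have h4 := eta_theta a.1 w 0
        rw [h, map_one, he] at h4
        simp at h4
        exact h1 h4.symm
      obtain ⟨Q, _, φ, hQ, hφ⟩ := ih (X × ℤ) _ h2 h3
      refine ⟨Wr Q, inferInstance, (wrMap φ).comp (theta a.1), wr_isSolvable, fun h => hφ ?_⟩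
      exact congrArg (fun x : Wr Q => x.s 0) h
    · refine ⟨Multiplicative ℤ, inferInstance, Wr.eHom.comp (theta a.1),
        Group.isSolvable_of_comm fun a b => mul_comm a b, fun h => he ?_⟩
      exact Multiplicative.ofAdd.injective h

/-- A nontrivial element of a free group is outside some term of the derived series. -/
theorem exists_notMem_derivedSeries {X : Type} (w : FreeGroup X) (hw : w ≠ 1) :
    ∃ d, w ∉ derivedSeries (FreeGroup X) d := by
  classical
  obtain ⟨Q, _, φ, hQ, hφ⟩ := exists_solvable w.norm X w le_rfl hw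
  obtain ⟨d, hd⟩ := (Group.isSolvable_def Q).1 hQ
  refine ⟨d, fun h => hφ ?_⟩
  have h1 := map_derivedSeries_le_derivedSeries φ d ⟨w, h, rfl⟩
  rw [hd] at h1
  exact h1

end Vale.Agent.P215.R2.H460
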