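import Vale.Agent.P215.R2.H460.Loc

/-!
# P215: no countable family of finite choices of discs serves the good limits of solvable groups
-/

noncomputable section

namespace Vale.Agent.P215.R2.H460

open Vale.Agent.P215.H788 Topology Set

/-- A choice of framed discs: for every capped grope and every homomorphism from the fundamental
group of its thickening to `F_n` a set of framed discs in the thickening. -/
abbrev DiscChoice (n : ℕ) : Type :=
  (G : CappedGrope) → (FundamentalGroup G.Thickening G.basePt →* FreeGroup (Fin n)) →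
    Set (FramedDisc G.Thickening G.attach)

/-- The choice serves the marked group `F_n / N`: for every capped grope and every homomorphism to
`F_n` one of the chosen discs has all its double point loops in the kernel of the composite with
`F_n → F_n / N`. -/
def Serves {n : ℕ} (L : DiscChoice n) (N : MarkedGroup n) : Prop :=
  ∀ (G : CappedGrope) (ψ : FundamentalGroup G.Thickening G.basePt →* FreeGroup (Fin n)),
    ∃ D ∈ L G ψ, D.Kills ((QuotientGroup.mk' N.1).comp ψ)

theorem isClosed_mem {n : ℕ} (w : FreeGroup (Fin n)) :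
    IsClosed {N : MarkedGroup n | (QuotientGroup.mk' N.1) w = 1} := by
  have h : {N : MarkedGroup n | (QuotientGroup.mk' N.1) w = 1} =
      {N : MarkedGroup n | N.char w ∈ ({true} : Set Bool)} := by
    ext N
    change (QuotientGroup.mk' N.1) w = 1 ↔ N.char w = true
    rw [char_eq_true]
    exact QuotientGroup.eq_one_iff w
  have hc : Continuous fun f : FreeGroup (Fin n) → Bool => f w := continuous_apply w
  have hd : Continuous (MarkedGroup.char (n := n)) := continuous_induced_dom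
  rw [h]
  exact (isClosed_discrete ({true} : Set Bool)).preimage (hc.comp hd)

theorem isClosed_kills {n : ℕ} {G : CappedGrope} (D : FramedDisc G.Thickening G.attach)
    (ψ : FundamentalGroup G.Thickening G.basePt →* FreeGroup (Fin n)) :
    IsClosed {N : MarkedGroup n | D.Kills ((QuotientGroup.mk' N.1).comp ψ)} := by
  have h : {N : MarkedGroup n | D.Kills ((QuotientGroup.mk' N.1).comp ψ)} =
      ⋂ (k : Fin D.n) (c : Path G.basePt (D.map (D.fst k))) (l : Path (D.fst k) (D.snd k)),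
        {N : MarkedGroup n | (QuotientGroup.mk' N.1) (ψ (FundamentalGroup.fromPath
          (Path.Homotopic.Quotient.mk ((c.trans (D.doublePointLoop k l)).trans c.symm)))) = 1} := by
    ext N
    simp only [mem_iInter]
    exact Iff.rfl
  rw [h]
  exact isClosed_iInter fun k => isClosed_iInter fun c => isClosed_iInter fun l => isClosed_mem _

theorem isClosed_serves {n : ℕ} (L : DiscChoice n) (hL : ∀ G ψ, (L G ψ).Finite) :
    IsClosed {N : MarkedGroup n | Serves L N} := by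
  have h : {N : MarkedGroup n | Serves L N} =
      ⋂ (G : CappedGrope) (ψ : FundamentalGroup G.Thickening G.basePt →* FreeGroup (Fin n)),
        ⋃ D ∈ L G ψ, {N : MarkedGroup n | D.Kills ((QuotientGroup.mk' N.1).comp ψ)} := by
    ext N
    simp only [mem_iInter, mem_iUnion, exists_prop]
    exact Iff.rfl
  rw [h]
  exact isClosed_iInter fun G => isClosed_iInter fun ψ =>
    (hL G ψ).isClosed_biUnion fun D _ => isClosed_kills D ψ

/-- **Baire category**, with a cover of the points of the `G_δ` set in the closure. -/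
theorem exists_open_of_cover {n : ℕ} {P A : Set (MarkedGroup n)} (hP : IsGδ P)
    (S : ℕ → Set (MarkedGroup n)) (hS : ∀ k, IsClosed (S k)) (hA : A ⊆ P) (hne : A.Nonempty)
    (hcov : P ∩ closure A ⊆ ⋃ k, S k) :
    ∃ (k : ℕ) (U : Set (MarkedGroup n)), IsOpen U ∧ (U ∩ closure A).Nonempty ∧
      U ∩ closure A ⊆ S k := by
  obtain ⟨V, hV, hVe⟩ := isGδ_iff_eq_iInter_nat.1 hP
  have : CompactSpace (closure A) := isCompact_iff_compactSpace.1 isClosed_closure.isCompact
  have : Nonempty (closure A) := by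
    obtain ⟨a, ha⟩ := hne
    exact ⟨⟨a, subset_closure ha⟩⟩
  let T : ℕ ⊕ ℕ → Set (closure A) := fun k => Sum.elim (fun k => Subtype.val ⁻¹' (S k))
    (fun k => Subtype.val ⁻¹' (V k)ᶜ) k
  have hT : ∀ k, IsClosed (T k) := by
    rintro (k | k)
    · exact (hS k).preimage continuous_subtype_val
    · exact (hV k).isClosed_compl.preimage continuous_subtype_val
  have hU : ⋃ k, T k = univ := by
    rw [eq_univ_iff_forall]
    rintro ⟨x, hx⟩
    by_cases h : x ∈ P
    · obtain ⟨k, hk⟩ := mem_iUnion.1 (hcov ⟨h, hx⟩)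
      exact mem_iUnion.2 ⟨Sum.inl k, hk⟩
    · rw [hVe, mem_iInter] at h
      push Not at h
      obtain ⟨k, hk⟩ := h
      exact mem_iUnion.2 ⟨Sum.inr k, hk⟩
  obtain ⟨k, hk⟩ := nonempty_interior_of_iUnion_of_closed hT hU
  obtain ⟨W, hW, hWe⟩ := isOpen_induced_iff.1 (isOpen_interior (s := T k))
  obtain ⟨x, hx⟩ := hk
  have hxW : (x : MarkedGroup n) ∈ W := by
    have : x ∈ Subtype.val ⁻¹' W := by rw [hWe]; exact hx
    exact this
  have hsub : ∀ y (hy : y ∈ closure A), y ∈ W → (⟨y, hy⟩ : closure A) ∈ T k := by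
    intro y hy hyW
    have : (⟨y, hy⟩ : closure A) ∈ Subtype.val ⁻¹' W := hyW
    rw [hWe] at this
    exact interior_subset this
  rcases k with k | k
  · exact ⟨k, W, hW, ⟨x, hxW, x.2⟩, fun y hy => hsub y hy.2 hy.1⟩
  · exfalso
    obtain ⟨y, hyW, hyA⟩ := mem_closure_iff.1 x.2 W hW hxW
    have h2 : y ∉ V k := hsub y (subset_closure hyA) hyW
    have h3 : y ∈ P := hA hyA
    rw [hVe] at h3
    exact h2 (mem_iInter.1 h3 k)

section lift

variable {n : ℕ} (L : Over n)

theorem Over.exists_lift_injective : ∃ m₀ : ℕ, ∀ m, m₀ ≤ m → ∀ N : MarkedGroup n,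
    N.1 ≤ (L.Phi m).ker → ∃ g : FreeGroup (Fin 2) →* FreeGroup (Fin n),
      Function.Injective ((QuotientGroup.mk' N.1).comp g) := by
  obtain ⟨m₀, h₀⟩ := L.exists_comp_up
  refine ⟨m₀ + 1, fun m hm N hN => ⟨L.up.comp (lam m),
    (injective_iff_map_eq_one _).2 fun v hv => ?_⟩⟩
  have h1 : L.up (lam m v) ∈ N.1 := (QuotientGroup.eq_one_iff (L.up (lam m v))).1 hv
  have h2 := Phi_lam m (by omega) v
  have h3 : H460.Phi m (lam m v) = 1 := by
    rw [← h₀ m (by omega), MonoidHom.comp_apply]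
    exact hN h1
  rw [h3] at h2
  exact h2.2.symm

theorem Over.exists_lift_mem {U : Set (MarkedGroup n)} (hU : IsOpen U)
    (h : (U ∩ closure L.AA).Nonempty) :
    ∃ N ∈ U ∩ closure L.AA, ∃ g : FreeGroup (Fin 2) →* FreeGroup (Fin n),
      Function.Injective ((QuotientGroup.mk' N.1).comp g) := by
  obtain ⟨x, hxU, hx⟩ := h
  obtain ⟨N, hNU, hN⟩ := mem_closure_iff.1 hx U hU hxU
  obtain ⟨R, hR⟩ := MarkedGroup.exists_ball_subset hU hNU
  obtain ⟨m₁, h₁⟩ := L.cut_near hN.2 R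
  obtain ⟨m₂, h₂⟩ := L.exists_lift_injective
  refine ⟨L.cut (max m₁ m₂) N, ⟨hR _ (h₁ _ (le_max_left _ _)), L.cut_mem_closure hN _⟩, ?_⟩
  exact h₂ _ (le_max_right _ _) _ inf_le_right

end lift

/-- If a choice of discs serves a marked group which contains a lifted free group, `F_2` is good. -/
theorem good_of_serves {n : ℕ} {L : DiscChoice n} {N : MarkedGroup n} (h : Serves L N)
    (g : FreeGroup (Fin 2) →* FreeGroup (Fin n))
    (hg : Function.Injective ((QuotientGroup.mk' N.1).comp g)) : Good (FreeGroup (Fin 2)) := by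
  intro G φ
  obtain ⟨D, _, hD⟩ := h G (g.comp φ)
  exact ⟨D, fun k c l => (injective_iff_map_eq_one _).1 hg _ (hD k c l)⟩

/-- **No countable family of finite choices.** -/
theorem exists_not_served {n : ℕ} (N₀ : MarkedGroup n) (hs : Group.IsSolvable N₀.Grp)
    (ho : MapsOntoZwrZ N₀.Grp) (U : Set (MarkedGroup n)) (hU : IsOpen U) (hN₀ : N₀ ∈ U)
    (C : ℕ → DiscChoice n) (hC : ∀ k G ψ, (C k G ψ).Finite) :
    Good (FreeGroup (Fin 2)) ∨
      (∃ N ∈ U, Group.IsSolvable N.Grp ∧ MapsOntoZwrZ N.Grp ∧ ¬ Good N.Grp) ∨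
      ∃ N ∈ U, Good N.Grp ∧
        N ∈ closure {M : MarkedGroup n | Group.IsSolvable M.Grp ∧ MapsOntoZwrZ M.Grp} ∧
        ∀ k, ¬ Serves (C k) N := by
  by_cases h : ∃ N ∈ U, Group.IsSolvable N.Grp ∧ MapsOntoZwrZ N.Grp ∧ ¬ Good N.Grp
  · exact Or.inr (Or.inl h)
  by_cases h' : ∃ N ∈ U, Good N.Grp ∧
      N ∈ closure {M : MarkedGroup n | Group.IsSolvable M.Grp ∧ MapsOntoZwrZ M.Grp} ∧
      ∀ k, ¬ Serves (C k) N
  · exact Or.inr (Or.inr h')
  left
  push Not at h h'
  obtain ⟨L, hL⟩ := exists_over N₀ ho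
  obtain ⟨V, hV, hNV, hVU⟩ := exists_clopen hU hN₀
  have hP : IsGδ ({N : MarkedGroup n | Good N.Grp} ∩ V) := (isGδ_good n).inter hV.isOpen.isGδ
  have hAA : L.AA ∩ V ⊆ {N : MarkedGroup n | Good N.Grp} ∩ V := fun N hN =>
    ⟨h N (hVU hN.2) ((isSolvable_iff N).2 hN.1.1) (mapsOnto_of_le L N hN.1.2), hN.2⟩
  have hsub : L.AA ⊆ {M : MarkedGroup n | Group.IsSolvable M.Grp ∧ MapsOntoZwrZ M.Grp} :=
    fun N hN => ⟨(isSolvable_iff N).2 hN.1, mapsOnto_of_le L N hN.2⟩
  have hcov : ({N : MarkedGroup n | Good N.Grp} ∩ V) ∩ closure (L.AA ∩ V) ⊆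
      ⋃ k, {N : MarkedGroup n | Serves (C k) N} := by
    rintro N ⟨⟨hN1, hN2⟩, hN3⟩
    have h4 : N ∈ closure {M : MarkedGroup n | Group.IsSolvable M.Grp ∧ MapsOntoZwrZ M.Grp} :=
      closure_mono (inter_subset_left.trans hsub) hN3
    obtain ⟨k, hk⟩ := h' N (hVU hN2) hN1 h4
    exact mem_iUnion.2 ⟨k, hk⟩
  obtain ⟨k, U', hU', h1, h2⟩ := exists_open_of_cover hP
    (fun k => {N : MarkedGroup n | Serves (C k) N}) (fun k => isClosed_serves _ (hC k)) hAA
    ⟨N₀, ⟨(isSolvable_iff N₀).1 hs, hL⟩, hNV⟩ hcov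
  have h3 : ((U' ∩ V) ∩ closure L.AA).Nonempty := by
    obtain ⟨x, hx, hxc⟩ := h1
    exact ⟨x, ⟨hx, closure_minimal inter_subset_right hV.isClosed hxc⟩,
      closure_mono inter_subset_left hxc⟩
  obtain ⟨N, ⟨⟨hN1, hN2⟩, hN3⟩, g, hg⟩ := L.exists_lift_mem (hU'.inter hV.isOpen) h3
  have h4 : N ∈ closure (L.AA ∩ V) := by
    rw [inter_comm]
    exact hV.isOpen.inter_closure ⟨hN2, hN3⟩
  exact good_of_serves (h2 ⟨hN1, h4⟩) g hg

theorem kills_of_le {n : ℕ} {G : CappedGrope} {D : FramedDisc G.Thickening G.attach}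
    {ψ : FundamentalGroup G.Thickening G.basePt →* FreeGroup (Fin n)} {K : Subgroup (FreeGroup (Fin n))}
    [K.Normal] {N : MarkedGroup n} (h : D.Kills ((QuotientGroup.mk' K).comp ψ)) (hK : K ≤ N.1) :
    D.Kills ((QuotientGroup.mk' N.1).comp ψ) := by
  intro k c l
  exact (QuotientGroup.eq_one_iff _).2 (hK ((QuotientGroup.eq_one_iff _).1 (h k c l)))

/-- Countably many choices of one disc serve all solvable groups. -/
theorem exists_solvable_choice {n : ℕ}
    (h : ∀ N : MarkedGroup n, Group.IsSolvable N.Grp → Good N.Grp) :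
    ∃ C : ℕ → DiscChoice n, (∀ k G ψ, ∃ D, C k G ψ = {D}) ∧
      ∀ N : MarkedGroup n, Group.IsSolvable N.Grp → ∃ k, Serves (C k) N := by
  have h1 : ∀ d : ℕ, Good (FreeGroup (Fin n) ⧸ derivedSeries (FreeGroup (Fin n)) d) := fun d =>
    h ⟨derivedSeries (FreeGroup (Fin n)) d, inferInstance⟩ ((isSolvable_iff _).2 ⟨d, le_rfl⟩)
  choose D hD using fun (d : ℕ) (G : CappedGrope)
    (ψ : FundamentalGroup G.Thickening G.basePt →* FreeGroup (Fin n)) =>
      h1 d G ((QuotientGroup.mk' _).comp ψ)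
  refine ⟨fun d G ψ => {D d G ψ}, fun d G ψ => ⟨_, rfl⟩, fun N hN => ?_⟩
  obtain ⟨d, hd⟩ := (isSolvable_iff N).1 hN
  exact ⟨d, fun G ψ => ⟨D d G ψ, rfl, kills_of_le (hD d G ψ) hd⟩⟩

/-- If `F_2` is good, one choice of one disc serves all groups with two generators. -/
theorem exists_one_choice (h : Good (FreeGroup (Fin 2))) :
    ∃ C : DiscChoice 2, (∀ G ψ, ∃ D, C G ψ = {D}) ∧ ∀ N : MarkedGroup 2, Serves C N := by
  choose D hD using fun (G : CappedGrope)
    (ψ : FundamentalGroup G.Thickening G.basePt →* FreeGroup (Fin 2)) => h G ψ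
  refine ⟨fun G ψ => {D G ψ}, fun G ψ => ⟨_, rfl⟩, fun N G ψ => ⟨D G ψ, rfl, fun k c l => ?_⟩⟩
  rw [MonoidHom.comp_apply, hD G ψ k c l, map_one]

/-- The equivalence for groups with two generators. -/
theorem tfae_choices (h : ∀ N : MarkedGroup 2, Group.IsSolvable N.Grp → Good N.Grp) :
    List.TFAE [
      Good (FreeGroup (Fin 2)),
      ∃ C : DiscChoice 2, (∀ G ψ, ∃ D, C G ψ = {D}) ∧ ∀ N : MarkedGroup 2, Serves C N,
      ∃ C : ℕ → DiscChoice 2, (∀ k G ψ, (C k G ψ).Finite) ∧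
        ∀ N : MarkedGroup 2, Good N.Grp → ∃ k, Serves (C k) N,
      ∃ N₀ : MarkedGroup 2, Group.IsSolvable N₀.Grp ∧ MapsOntoZwrZ N₀.Grp ∧
        ∃ U : Set (MarkedGroup 2), IsOpen U ∧ N₀ ∈ U ∧
        ∃ C : ℕ → DiscChoice 2, (∀ k G ψ, (C k G ψ).Finite) ∧
        ∀ N ∈ U, Good N.Grp →
          N ∈ closure {M : MarkedGroup 2 | Group.IsSolvable M.Grp ∧ MapsOntoZwrZ M.Grp} →
          ∃ k, Serves (C k) N] := by
  tfae_have 1 → 2 := exists_one_choice
  tfae_have 2 → 3 := by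
    rintro ⟨C, h1, h2⟩
    refine ⟨fun _ => C, fun _ G ψ => ?_, fun N _ => ⟨0, h2 N⟩⟩
    obtain ⟨D, hD⟩ := h1 G ψ
    change (C G ψ).Finite
    rw [hD]
    exact finite_singleton D
  tfae_have 3 → 4 := by
    rintro ⟨C, h1, h2⟩
    exact ⟨zWrZ, zWrZ_solvable, zWrZ_mapsOnto, univ, isOpen_univ, mem_univ _, C, h1,
      fun N _ hN _ => h2 N hN⟩
  tfae_have 4 → 1 := by
    rintro ⟨N₀, hs, ho, U, hU, hN₀, C, h1, h2⟩
    rcases exists_not_served N₀ hs ho U hU hN₀ C h1 with h3 | ⟨N, _, h3, _, h4⟩ |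
      ⟨N, hN, h3, h4, h5⟩
    · exact h3
    · exact absurd (h N h3) h4
    · obtain ⟨k, hk⟩ := h2 N hN h3 h4
      exact absurd hk (h5 k)
  tfae_finish

end Vale.Agent.P215.R2.H460
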